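import Vale.Agent.P032.H725.Sc
import Vale.Agent.P032.H815.GenArc

/-!
# P032: no hidden colours on arcs, for every choice of the palettes

Frame `Sc U` (a property of `U` alone), `Irr U T` (any `T`).

* `exists_irr_sc` : existence of `Irr`, `Mn`, `Sc` (and `Gen`) together,
* `Sc.no_miss` : a colour `q` which is in `Pal` on an arc of a circle of radius `n` (any centre) in `XX U` cannot miss
  all unit circles about the points of the arc,
* `Sc.partner` : on a dense set of points of such an arc every colour of `Pal` has a partner in `T`,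
* `Sc.partner_all` : a colour which is in `Pal` on the arc has a partner in `T` at every point of the arc,
* `Sc.line`, `nohid` : on an arc of `S(x)` the partner is `x` or `2 w - x`,
* `out_mem` : a colour of an arc of `S(x)` which occurs outside is in `T x`.
-/

open Set Filter Topology Metric
open scoped Pointwise

noncomputable section

namespace Vale.Agent.P032.H725

open Vale.Agent.P032.Six Vale.Agent.P032.H815 Vale.Agent.P032.H374

/-- **Existence.** -/
theorem exists_irr_sc {W : Fin 6 → Set ℂ} (hW : Sol W) : ∃ U T, Irr U T ∧ Mn U T ∧ Sc U ∧ Gen U := by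
  obtain ⟨U, hM, hmax, hG⟩ := exists_sc hW
  obtain ⟨T, hT, hmin⟩ := S5.H410.exists_irr_min_of hM hmax
  refine ⟨U, T, hT, fun z hz s hs hne hcov => hne (hmin z hz s hs ?_), hG, hG.gen hM.isOpen⟩
  filter_upwards [hcov] with w hw
  obtain ⟨i, his, hi⟩ := hw
  rcases hi with hi | ⟨hX, hi⟩
  · exact ⟨i, his, subset_closure hi, fun _ => hi⟩
  · exact ⟨i, his, hi, fun hcon => absurd hX hcon⟩

variable {k : ℕ} {U : Fin k → Set ℂ} {T : ℂ → Set (Fin k)}

/-- **The main lemma.** -/
theorem Sc.no_miss (hS : Sc U) (h : Irr U T) {c : ℂ} {n : ℕ} (hn : 1 ≤ n) {a b : ℝ} (hab : a < b) {q : Fin k}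
    (hX : ∀ t ∈ Ioo a b, c + n * cis t ∈ XX U) (hq : ∀ t ∈ Ioo a b, q ∈ Pal U (c + n * cis t))
    (hT : ∀ t ∈ Ioo a b, ∀ y, dist y (c + n * cis t) = 1 → q ∉ T y) : False := by
  -- a compact part of the arc
  set a' : ℝ := a + (b - a) / 3 with ha'
  set b' : ℝ := a + 2 * (b - a) / 3 with hb'
  have hab' : a' < b' := by rw [ha', hb']; linarith
  have hI : ∀ t ∈ Icc a' b', t ∈ Ioo a b := fun t ht =>
    ⟨by rw [ha'] at ht; linarith [ht.1], by rw [hb'] at ht; linarith [ht.2]⟩
  set Q : Set ℂ := (fun p : ℝ × ℂ => c + n * cis p.1 + p.2) '' (Icc a' b' ×ˢ sphere (0 : ℂ) 1) with hQ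
  have hQc : IsCompact Q := by
    refine (isCompact_Icc.prod (isCompact_sphere 0 1)).image ?_
    have := continuous_cis
    fun_prop
  have hQT : Disjoint Q {x | q ∈ T x} := by
    rw [Set.disjoint_left]
    rintro _ ⟨⟨t, v⟩, ⟨ht, hv⟩, rfl⟩ hqT
    refine hT t (hI t ht) _ ?_ hqT
    rw [dist_eq_norm, add_sub_cancel_left, ← sub_zero v, ← dist_eq_norm]
    exact hv
  obtain ⟨δ, hδ, hδd⟩ := hQT.exists_thickenings hQc (h.closed q)
  -- the scale
  obtain ⟨m₁, hm₁⟩ := exists_nat_ge (‖c‖ + n + 3)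
  obtain ⟨m₂, hm₂⟩ := exists_nat_one_div_lt (show 0 < min (b' - a') (δ / 2) by
    exact lt_min (by linarith) (by positivity))
  set m := max m₁ m₂ with hm
  have hm1 : ‖c‖ + n + 3 ≤ m := hm₁.trans (by exact_mod_cast le_max_left m₁ m₂)
  have hm2 : 1 / ((m : ℝ) + 1) < min (b' - a') (δ / 2) := by
    refine lt_of_le_of_lt (one_div_le_one_div_of_le (by positivity) ?_) hm₂
    have : (m₂ : ℝ) ≤ m := by exact_mod_cast le_max_right m₁ m₂
    linarith
  have hm3 : 1 / ((m : ℝ) + 1) < b' - a' := hm2.trans_le (min_le_left _ _)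
  have hm4 : 1 / ((m : ℝ) + 1) < δ / 2 := hm2.trans_le (min_le_right _ _)
  have hm5 : 1 / ((m : ℝ) + 1) ≤ 1 / 4 :=
    one_div_le_one_div_of_le (by norm_num) (by
      have := norm_nonneg c
      have : (0 : ℝ) ≤ n := by positivity
      linarith)
  obtain ⟨K, C, ρ, h1, hKU, hCU⟩ := hS m
  have hρ := h1.pos
  have hρm := h1.lt
  obtain ⟨t, ht, hfar⟩ := h1.arc c (by
      have : (0 : ℝ) ≤ n := by positivity
      linarith) n hn (by
      have := norm_nonneg c
      have h2 : (n : ℝ) ≤ m := by linarith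
      exact_mod_cast h2) a'
  have htI : t ∈ Icc a' b' := ⟨ht.1.le, by linarith [ht.2]⟩
  have htJ := hI t htI
  set w : ℂ := c + n * cis t with hw
  have hwX : w ∈ XX U := hX t htJ
  have hwq : q ∈ Pal U w := hq t htJ
  have hwm : ‖w‖ ≤ m := by
    have e1 : ‖w‖ ≤ ‖c‖ + ‖(n : ℂ) * cis t‖ := norm_add_le _ _
    rw [norm_mul, norm_cis, mul_one, Complex.norm_natCast] at e1
    linarith
  have hKfar : ∀ v ∈ K q, 2 * ρ < |dist v w - 1| := by
    rcases hfar q with ⟨v, hv, hv1⟩ | h2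
    · exact absurd hv1 (h.mx.free q v (hKU q hv) w hwq)
    · exact h2
  -- the annulus
  set A : Set ℂ := {y | |dist y w - 1| ≤ 2 * ρ} with hA
  have hAc : IsClosed A := isClosed_le (by fun_prop) continuous_const
  have hAT : ∀ y ∈ A, q ∉ T y := by
    intro y hy hqy
    have hy' : |dist y w - 1| ≤ 2 * ρ := hy
    have hpos : 0 < dist y w := by
      have := (abs_le.1 hy').1
      linarith
    have hn0 : ‖y - w‖ = dist y w := (dist_eq_norm _ _).symm
    have hne : (‖y - w‖ : ℂ) ≠ 0 := by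
      rw [hn0]
      exact_mod_cast hpos.ne'
    refine Set.disjoint_left.1 hδd (mem_thickening_iff.2 ⟨w + (y - w) / ‖y - w‖, ⟨(t, (y - w) / ‖y - w‖),
      ⟨htI, ?_⟩, rfl⟩, ?_⟩) (self_subset_thickening hδ _ hqy)
    · show (y - w) / (‖y - w‖ : ℂ) ∈ sphere (0 : ℂ) 1
      rw [mem_sphere, dist_zero_right, norm_div, Complex.norm_real, norm_norm, hn0, div_self hpos.ne']
    · have e1 : y - (w + (y - w) / (‖y - w‖ : ℂ)) = (y - w) / (‖y - w‖ : ℂ) * ((dist y w - 1 : ℝ) : ℂ) := by
        push_cast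
        rw [← hn0]
        field_simp
        ring
      rw [dist_eq_norm, e1, norm_mul, norm_div, Complex.norm_real, Complex.norm_real, norm_norm, hn0,
        div_self hpos.ne', one_mul, Real.norm_eq_abs]
      linarith
  have hNA : ∀ x y, y ∈ ball w (2 * ρ) → dist x y = 1 → x ∈ A := by
    intro x y hy hxy
    show |dist x w - 1| ≤ 2 * ρ
    have hy := mem_ball.1 hy
    have e1 := dist_triangle x y w
    have e2 := dist_triangle x w y
    rw [dist_comm w y] at e2
    rw [abs_le]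
    constructor <;> linarith
  classical
  refine h1.mi w hwX hwm (fun j => if j = q then (U q \ A) ∪ ball w (2 * ρ) else U j)
    ⟨fun j => ?_, fun j x hx y hy => ?_, ?_⟩ (fun j => ?_) (fun y hy => ?_) fun y hy => ?_
  · split_ifs
    · exact ((h.mx.isOpen q).sdiff hAc).union isOpen_ball
    · exact h.mx.isOpen j
  · have hU1 : ∀ j, ∀ x ∈ U j, ∀ y ∈ U j, dist x y ≠ 1 := fun j x hx y hy =>
      h.mx.free j x hx y (subset_closure hy)
    split_ifs at hx hy with hjq
    · rcases hx with hx | hx <;> rcases hy with hy | hy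
      · exact hU1 q x hx.1 y hy.1
      · exact fun hxy => hx.2 (hNA x y hy hxy)
      · exact fun hxy => hy.2 (hNA y x hx (by rw [dist_comm]; exact hxy))
      · intro hxy
        have e1 := dist_triangle x w y
        rw [dist_comm w y] at e1
        have e2 := mem_ball.1 hx
        have e3 := mem_ball.1 hy
        linarith
    · exact hU1 j x hx y hy
  · -- density
    rw [Metric.dense_iff]
    intro x r hr
    obtain ⟨w', hw', hwr⟩ := h.mx.dense.exists_mem_open isOpen_ball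
      (⟨x, mem_ball_self hr⟩ : (ball x r).Nonempty)
    obtain ⟨j, hj⟩ := mem_iUnion.1 hw'
    by_cases hjq : j = q
    · subst hjq
      by_cases hwA : w' ∈ A
      · obtain ⟨j', hj'⟩ := h.ne w'
        have hne : j' ≠ j := fun h5 => hAT w' hwA (h5 ▸ hj')
        obtain ⟨v, hv, hvr⟩ := ((h.pure w' j' hj').and_eventually (isOpen_ball.mem_nhds hwr)).exists
        refine ⟨v, hvr, mem_iUnion.2 ⟨j', ?_⟩⟩
        simp only [if_neg hne]
        exact h.mem_of_single hv.le
      · refine ⟨w', hwr, mem_iUnion.2 ⟨j, ?_⟩⟩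
        simp only [if_true]
        exact Or.inl ⟨hj, hwA⟩
    · refine ⟨w', hwr, mem_iUnion.2 ⟨j, ?_⟩⟩
      simp only [if_neg hjq]
      exact hj
  · show K j ⊆ if j = q then (U q \ A) ∪ ball w (2 * ρ) else U j
    split_ifs with hjq
    · subst hjq
      refine fun y hy => Or.inl ⟨hKU j hy, fun hyA => ?_⟩
      exact absurd (hKfar y hy) (not_lt.2 hyA)
    · exact hKU j
  · obtain ⟨j, hj⟩ := mem_iUnion.1 (hCU hy)
    by_cases hyA : y ∈ A
    · have hyX : y ∉ XX U := fun hcon => hcon j hj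
      obtain ⟨j', hj'⟩ := h.ne y
      have hne : j' ≠ q := fun h5 => hAT y hyA (h5 ▸ hj')
      refine mem_iUnion.2 ⟨j', ?_⟩
      simp only [if_neg hne]
      exact h.off y hyX j' hj'
    · refine mem_iUnion.2 ⟨j, ?_⟩
      by_cases hjq : j = q
      · subst hjq
        simp only [if_true]
        exact Or.inl ⟨hj, hyA⟩
      · simp only [if_neg hjq]
        exact hj
  · refine mem_iUnion.2 ⟨q, ?_⟩
    simp only [if_true]
    refine Or.inr (closedBall_subset_ball ?_ hy)
    linarith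

/-- closed sets are locally constant on a small interval -/
theorem exists_const {ι : Type*} (s : Finset ι) (F : ι → Set ℝ) (hF : ∀ i, IsClosed (F i)) {a b : ℝ}
    (hab : a < b) : ∃ a' b', a ≤ a' ∧ a' < b' ∧ b' ≤ b ∧
      ∀ i ∈ s, Ioo a' b' ⊆ F i ∨ Disjoint (Ioo a' b') (F i) := by
  classical
  induction s using Finset.induction_on with
  | empty => exact ⟨a, b, le_rfl, hab, le_rfl, by simp⟩
  | insert i s hi ih =>
    obtain ⟨a1, b1, h1, h2, h3, h4⟩ := ih
    by_cases hsub : Ioo a1 b1 ⊆ F i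
    · refine ⟨a1, b1, h1, h2, h3, fun j hj => ?_⟩
      rcases Finset.mem_insert.1 hj with rfl | hj
      · exact Or.inl hsub
      · exact h4 j hj
    · obtain ⟨t, ht, htF⟩ := Set.not_subset.1 hsub
      obtain ⟨ε, hε, hb⟩ := Metric.isOpen_iff.1 (isOpen_Ioo.inter (hF i).isOpen_compl) t ⟨ht, htF⟩
      rw [Real.ball_eq_Ioo] at hb
      have hb2 : Ioo (t - ε) (t + ε) ⊆ Ioo a1 b1 := hb.trans inter_subset_left
      have h5 := (Ioo_subset_Ioo_iff (by linarith)).1 hb2
      refine ⟨t - ε, t + ε, h1.trans h5.1, by linarith, h5.2.trans h3, fun j hj => ?_⟩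
      rcases Finset.mem_insert.1 hj with rfl | hj
      · right
        rw [Set.disjoint_left]
        exact fun s hs => (hb hs).2
      · rcases h4 j hj with h6 | h6
        · exact Or.inl (hb2.trans h6)
        · exact Or.inr (h6.mono_left hb2)

/-- the set of points whose unit circle meets `{x | q ∈ T x}` is closed -/
theorem isClosed_part (h : Irr U T) (q : Fin k) : IsClosed {w | ∃ y, dist y w = 1 ∧ q ∈ T y} := by
  have e : {w | ∃ y, dist y w = 1 ∧ q ∈ T y} = {x | q ∈ T x} + sphere (0 : ℂ) 1 := by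
    ext w
    constructor
    · rintro ⟨y, hy, hq⟩
      refine ⟨y, hq, w - y, ?_, by simp⟩
      rw [mem_sphere, dist_zero_right, ← dist_eq_norm, dist_comm]
      exact hy
    · rintro ⟨y, hy, v, hv, rfl⟩
      refine ⟨y, ?_, hy⟩
      rw [mem_sphere, dist_zero_right] at hv
      rw [dist_eq_norm]
      simpa using hv
  rw [e]
  exact (h.closed q).add_right_of_isCompact (isCompact_sphere 0 1)

/-- **a colour of `Pal` on an arc has a partner in `T` at every point of the arc** -/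
theorem Sc.partner_all (hS : Sc U) (h : Irr U T) {c : ℂ} {n : ℕ} (hn : 1 ≤ n) {a b : ℝ} {q : Fin k}
    (hX : ∀ t ∈ Ioo a b, c + n * cis t ∈ XX U) (hq : ∀ t ∈ Ioo a b, q ∈ Pal U (c + n * cis t)) :
    ∀ t ∈ Ioo a b, ∃ y, dist y (c + n * cis t) = 1 ∧ q ∈ T y := by
  intro t ht
  by_contra hcon
  have hcl : IsClosed ((fun s : ℝ => c + n * cis s) ⁻¹' {w | ∃ y, dist y w = 1 ∧ q ∈ T y}) :=
    (isClosed_part h q).preimage (continuous_const.add (continuous_const.mul continuous_cis))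
  obtain ⟨ε, hε, hb⟩ := Metric.isOpen_iff.1 (isOpen_Ioo.inter hcl.isOpen_compl) t ⟨ht, hcon⟩
  rw [Real.ball_eq_Ioo] at hb
  refine hS.no_miss h (a := t - ε) (b := t + ε) hn (by linarith) (fun s hs => hX s (hb hs).1)
    (fun s hs => hq s (hb hs).1) fun s hs y hy hqy => (hb hs).2 ⟨y, hy, hqy⟩

/-- **partners in `T` for all colours of `Pal`, on a dense set of points of an arc** -/
theorem Sc.partner (hS : Sc U) (h : Irr U T) {c : ℂ} {n : ℕ} (hn : 1 ≤ n) {a b : ℝ} (hab : a < b)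
    (hX : ∀ t ∈ Ioo a b, c + n * cis t ∈ XX U) :
    ∃ t ∈ Ioo a b, ∀ q ∈ Pal U (c + n * cis t), ∃ y, dist y (c + n * cis t) = 1 ∧ q ∈ T y := by
  classical
  have hc : Continuous fun s : ℝ => c + n * cis s := continuous_const.add (continuous_const.mul continuous_cis)
  obtain ⟨a', b', h1, h2, h3, h4⟩ := exists_const Finset.univ
    (fun q : Fin k => (fun s : ℝ => c + n * cis s) ⁻¹' closure (U q)) (fun q => isClosed_closure.preimage hc) hab
  have hsub : Ioo a' b' ⊆ Ioo a b := Ioo_subset_Ioo h1 h3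
  refine ⟨(a' + b') / 2, hsub ⟨by linarith, by linarith⟩, fun q hq => ?_⟩
  have hm : (a' + b') / 2 ∈ Ioo a' b' := ⟨by linarith, by linarith⟩
  rcases h4 q (Finset.mem_univ q) with h5 | h5
  · exact hS.partner_all h hn (fun t ht => hX t (hsub ht)) (fun t ht => h5 ht) _ hm
  · exact absurd hq (Set.disjoint_left.1 h5 hm)

section unit

variable {x y : ℂ} {q : Fin k}

/-- **on an arc of `S(x)` the partner is `x` or `2 y - x`** -/
theorem Sc.line (hS : Sc U) (h : Irr U T) (hy : dist y x = 1) (hX : ∀ᶠ w in 𝓝[sphere x 1] y, w ∈ XX U)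
    (hJ : ∀ᶠ w in 𝓝[sphere x 1] y, q ∈ Pal U w) : q ∈ T x ∨ q ∈ T (2 * y - x) := by
  obtain ⟨θ, hθ⟩ := exists_cis (u := y - x) (by rw [← dist_eq_norm]; exact hy)
  have hyθ : y = x + cis θ := by rw [← hθ]; ring
  have hXJ := hX.and hJ
  rw [hyθ] at hXJ
  obtain ⟨η, hη, hA⟩ := exists_arcs hXJ
  have hA' : ∀ t ∈ Ioo (θ - η) (θ + η), x + (1 : ℕ) * cis t ∈ XX U ∧ q ∈ Pal U (x + (1 : ℕ) * cis t) := by
    intro t ht
    rw [Nat.cast_one, one_mul]
    exact hA _ ⟨t, ht, rfl⟩
  obtain ⟨p, hp, hqp⟩ := hS.partner_all h (c := x) (n := 1) le_rfl (fun t ht => (hA' t ht).1)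
    (fun t ht => (hA' t ht).2) θ ⟨by linarith, by linarith⟩
  rw [Nat.cast_one, one_mul, ← hyθ] at hp
  rcases h.mx.partner_line hy hJ (by rw [dist_comm]; exact hp) (h.sub p hqp) with e | e
  · exact Or.inl (e ▸ hqp)
  · right
    rw [← e, add_sub_cancel_right]
    exact hqp

/-- **No hidden colours.** -/
theorem nohid (hS : Sc U) (h : Irr U T) (hX : ∀ᶠ w in 𝓝[sphere x 1] y, w ∈ XX U)
    (hJ : ∀ᶠ w in 𝓝[sphere x 1] y, q ∈ Pal U w) (hx : q ∉ T x) :
    ∀ᶠ w in 𝓝[sphere x 1] y, q ∈ T (2 * w - x) := by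
  filter_upwards [self_mem_nhdsWithin, eventually_eventually_nhdsWithin.2 hX,
    eventually_eventually_nhdsWithin.2 hJ] with w h1 h2 h3
  exact (hS.line h h1 h2 h3).resolve_left hx

/-- a colour of an arc of `S(x)` not in `T x` does not occur outside -/
theorem Sc.not_out (hS : Sc U) (h : Irr U T) (hy : dist y x = 1) (hX : ∀ᶠ w in 𝓝[sphere x 1] y, w ∈ XX U)
    (hJ : ∀ᶠ w in 𝓝[sphere x 1] y, q ∈ Pal U w) (hx : q ∉ T x) :
    ∀ᶠ w in 𝓝 y, 1 < dist w x → q ∉ Pal U w :=
  sweep_out h.mx hy ((nohid hS h hX hJ hx).mono fun _ hw => h.sub _ hw)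

/-- **an outer colour is in `T x`** -/
theorem out_mem (hS : Sc U) (h : Irr U T) (hy : dist y x = 1) (hX : ∀ᶠ w in 𝓝[sphere x 1] y, w ∈ XX U)
    (hJ : ∀ᶠ w in 𝓝[sphere x 1] y, q ∈ Pal U w) (ho : ∃ᶠ w in 𝓝 y, 1 < dist w x ∧ q ∈ Pal U w) : q ∈ T x := by
  by_contra hx
  obtain ⟨w, ⟨h1, h2⟩, h3⟩ := (ho.and_eventually (hS.not_out h hy hX hJ hx)).exists
  exact h3 h1 h2

end unit

end Vale.Agent.P032.H725
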