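import Vale.Agent.P032.Six.Geo

/-!
# P032: arcs and finitely many discs

`arc_far` : given finitely many discs of radius less than one and `m`, there is `ρ > 0` such that every arc of
length `1 / (m + 1)` of a circle of radius `n ≤ m` with centre in the disc of radius `m` has a point `w` such
that each of the given discs either has a point at distance exactly one from `w` or has only points `v` with
`|dist v w - 1| > ρ`.
-/

open Set Filter Topology Metric

noncomputable section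

namespace Vale.Agent.P032.H725

open Vale.Agent.P032.Six

/-- finite unions of closed discs of radius less than one -/
def Bl (K : Set ℂ) : Prop :=
  ∃ s : Finset (ℂ × ℝ), (∀ p ∈ s, 0 < p.2 ∧ p.2 < 1) ∧ K = ⋃ p ∈ s, closedBall p.1 p.2

theorem Bl.isCompact {K : Set ℂ} (h : Bl K) : IsCompact K := by
  obtain ⟨s, -, rfl⟩ := h
  exact s.isCompact_biUnion fun p _ => isCompact_closedBall _ _

theorem Bl.empty : Bl (∅ : Set ℂ) := ⟨∅, by simp, by simp⟩

/-- a compact subset of an open set is in the interior of a finite union of discs -/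
theorem exists_bl {L W : Set ℂ} (hL : IsCompact L) (hW : IsOpen W) (hLW : L ⊆ W) :
    ∃ K, Bl K ∧ L ⊆ interior K ∧ K ⊆ W := by
  classical
  have h1 : ∀ x, ∃ r : ℝ, 0 < r ∧ r < 1 ∧ (x ∈ L → closedBall x r ⊆ W) := by
    intro x
    by_cases hx : x ∈ L
    · obtain ⟨r, hr, hb⟩ := Metric.isOpen_iff.1 hW x (hLW hx)
      refine ⟨min (r / 2) (1 / 2), by positivity, ?_, fun _ => ?_⟩
      · exact lt_of_le_of_lt (min_le_right _ _) (by norm_num)
      · refine (closedBall_subset_ball ?_).trans hb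
        exact lt_of_le_of_lt (min_le_left _ _) (by linarith)
    · exact ⟨1 / 2, by norm_num, by norm_num, fun h => absurd h hx⟩
  choose r hr0 hr1 hr using h1
  obtain ⟨t, htL, ht⟩ := hL.elim_nhds_subcover (fun x => ball x (r x)) fun x _ =>
    ball_mem_nhds x (hr0 x)
  refine ⟨⋃ p ∈ t.image (fun x => (x, r x)), closedBall p.1 p.2,
    ⟨t.image fun x => (x, r x), fun p hp => ?_, rfl⟩, fun x hx => ?_, fun x hx => ?_⟩
  · obtain ⟨x, hx, rfl⟩ := Finset.mem_image.1 hp
    exact ⟨hr0 x, hr1 x⟩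
  · obtain ⟨y, hy, hxy⟩ := mem_iUnion₂.1 (ht hx)
    refine mem_interior.2 ⟨ball y (r y), fun z hz => ?_, isOpen_ball, hxy⟩
    exact mem_iUnion₂.2 ⟨(y, r y), Finset.mem_image.2 ⟨y, hy, rfl⟩, ball_subset_closedBall hz⟩
  · obtain ⟨p, hp, hxp⟩ := mem_iUnion₂.1 hx
    obtain ⟨y, hy, rfl⟩ := Finset.mem_image.1 hp
    exact hr y (htL y hy) hxp

/-- at distance exactly one, or clearly not -/
def Far (K : Set ℂ) (ρ : ℝ) (w : ℂ) : Prop :=
  (∃ v ∈ K, dist v w = 1) ∨ ∀ v ∈ K, ρ < |dist v w - 1|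

theorem exists_dist_one {c w : ℂ} {s : ℝ} (hs : s < 1) (h : |dist w c - 1| ≤ s) :
    ∃ v ∈ closedBall c s, dist v w = 1 := by
  have hd : 0 < dist w c := by
    have := (abs_le.1 h).1
    linarith
  have hn : ‖c - w‖ = dist w c := by rw [dist_comm, dist_eq_norm]
  have hne : (‖c - w‖ : ℂ) ≠ 0 := by
    rw [hn]
    exact_mod_cast hd.ne'
  refine ⟨w + (c - w) / ‖c - w‖, ?_, ?_⟩
  · rw [mem_closedBall, dist_eq_norm]
    have h1 : w + (c - w) / (‖c - w‖ : ℂ) - c = (c - w) / (‖c - w‖ : ℂ) * ((1 - dist w c : ℝ) : ℂ) := by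
      push_cast
      rw [← hn]
      field_simp
      ring
    rw [h1, norm_mul, norm_div, Complex.norm_real, Complex.norm_real, norm_norm, hn, div_self hd.ne',
      one_mul, Real.norm_eq_abs, abs_sub_comm]
    exact h
  · rw [dist_eq_norm, add_sub_cancel_left, norm_div, Complex.norm_real, norm_norm, hn, div_self hd.ne']

theorem far_of {K : Set ℂ} {s : Finset (ℂ × ℝ)} (hs : ∀ p ∈ s, 0 < p.2 ∧ p.2 < 1)
    (hK : K = ⋃ p ∈ s, closedBall p.1 p.2) {ρ : ℝ} {w : ℂ}
    (h : ∀ p ∈ s, |dist w p.1 - 1| ≤ p.2 ∨ ρ + p.2 < |dist w p.1 - 1|) : Far K ρ w := by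
  by_cases h1 : ∃ p ∈ s, |dist w p.1 - 1| ≤ p.2
  · obtain ⟨p, hp, hle⟩ := h1
    obtain ⟨v, hv, hv1⟩ := exists_dist_one (hs p hp).2 hle
    refine Or.inl ⟨v, ?_, hv1⟩
    rw [hK]
    exact mem_iUnion₂.2 ⟨p, hp, hv⟩
  · push Not at h1
    refine Or.inr fun v hv => ?_
    rw [hK] at hv
    obtain ⟨p, hp, hvp⟩ := mem_iUnion₂.1 hv
    have h2 := (h p hp).resolve_left (not_le.2 (h1 p hp))
    have h3 : |dist w p.1 - dist v w| ≤ dist v p.1 := by
      rw [abs_le]
      have e1 := dist_triangle w v p.1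
      have e2 := dist_triangle v p.1 w
      rw [dist_comm w v] at e1
      rw [dist_comm p.1 w] at e2
      constructor <;> linarith
    have h4 := mem_closedBall.1 hvp
    have h5 : |dist w p.1 - 1| ≤ |dist w p.1 - dist v w| + |dist v w - 1| := by
      have := abs_add_le (dist w p.1 - dist v w) (dist v w - 1)
      rwa [sub_add_sub_cancel] at this
    linarith

/-- the distance from the points of a circle to a fixed point is not constant, unless it is the radius -/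
theorem circ_ne {c q : ℂ} {n R : ℝ} (hn : 0 < n) (hR : 0 ≤ R) (hnR : R ≠ n) {I : Set ℝ} (hI : IsOpen I)
    (hne : I.Nonempty) : ∃ t ∈ I, dist (c + n * cis t) q ≠ R := by
  by_contra hcon
  push Not at hcon
  obtain ⟨t, ht⟩ := hne
  obtain ⟨ε, hε, hb⟩ := Metric.isOpen_iff.1 hI t ht
  set h : ℝ := min (ε / 2) 1 with hh
  have h0 : 0 < h := by positivity
  have h1 : h < ε := lt_of_le_of_lt (min_le_left _ _) (by linarith)
  have h2 : h ≤ 1 := min_le_right _ _
  have key : ∀ s ∈ I, R ^ 2 = n ^ 2 + ‖c - q‖ ^ 2 +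
      2 * n * ((c - q).re * Real.cos s + (c - q).im * Real.sin s) := by
    intro s hs
    rw [← hcon s hs, dist_eq_norm, ← Complex.normSq_eq_norm_sq, ← Complex.normSq_eq_norm_sq,
      Complex.normSq_apply, Complex.normSq_apply]
    have e1 : (cis s).re = Real.cos s := by simp [cis, Complex.exp_ofReal_mul_I_re]
    have e2 : (cis s).im = Real.sin s := by simp [cis, Complex.exp_ofReal_mul_I_im]
    simp only [Complex.sub_re, Complex.sub_im, Complex.add_re, Complex.add_im, Complex.mul_re,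
      Complex.mul_im, Complex.ofReal_re, Complex.ofReal_im, e1, e2, zero_mul, sub_zero, add_zero]
    have e3 := Real.sin_sq_add_cos_sq s
    linear_combination (n ^ 2) * e3
  have m1 : t + h ∈ I := hb (by rw [mem_ball, Real.dist_eq]; simpa [abs_of_pos h0] using h1)
  have m2 : t - h ∈ I := hb (by rw [mem_ball, Real.dist_eq]; simpa [abs_of_pos h0] using h1)
  have k0 := key t ht
  have k1 := key _ m1
  have k2 := key _ m2
  rw [Real.cos_add, Real.sin_add] at k1
  rw [Real.cos_sub, Real.sin_sub] at k2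
  set A := (c - q).re
  set B := (c - q).im
  set φ := A * Real.cos t + B * Real.sin t with hφ
  set ψ := B * Real.cos t - A * Real.sin t with hψ
  have g1 : φ = φ * Real.cos h + ψ * Real.sin h := by
    have : 2 * n * (φ - (φ * Real.cos h + ψ * Real.sin h)) = 0 := by
      rw [hφ, hψ]; linear_combination k1 - k0
    have h3 := (mul_eq_zero.1 this).resolve_left (by positivity)
    linarith
  have g2 : φ = φ * Real.cos h - ψ * Real.sin h := by
    have : 2 * n * (φ - (φ * Real.cos h - ψ * Real.sin h)) = 0 := by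
      rw [hφ, hψ]; linear_combination k2 - k0
    have h3 := (mul_eq_zero.1 this).resolve_left (by positivity)
    linarith
  have hpi := Real.pi_gt_three
  have hcos : Real.cos h < 1 := by
    have := Real.cos_lt_cos_of_nonneg_of_le_pi (x := 0) (y := h) le_rfl (by linarith) h0
    rwa [Real.cos_zero] at this
  have hsin : 0 < Real.sin h := Real.sin_pos_of_pos_of_lt_pi h0 (by linarith)
  have f1 : φ = 0 := by
    have : φ * (1 - Real.cos h) = 0 := by linarith
    exact (mul_eq_zero.1 this).resolve_right (by linarith)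
  have f2 : ψ = 0 := by
    have : ψ * Real.sin h = 0 := by linarith
    exact (mul_eq_zero.1 this).resolve_right (by linarith)
  have f3 : ‖c - q‖ ^ 2 = φ ^ 2 + ψ ^ 2 := by
    rw [← Complex.normSq_eq_norm_sq, Complex.normSq_apply, hφ, hψ]
    have e3 := Real.sin_sq_add_cos_sq t
    show A * A + B * B = _
    linear_combination (-(A ^ 2 + B ^ 2)) * e3
  rw [f3, f1, f2] at k0
  have : R ^ 2 = n ^ 2 := by rw [k0]; ring
  exact hnR ((sq_eq_sq₀ hR hn.le).1 this)

/-- an open set of parameters off finitely many circles of radius not `n` -/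
theorem exists_open_ne (c : ℂ) {n : ℕ} (hn : 1 ≤ n) (P : Finset (ℂ × ℝ)) (hP : ∀ p ∈ P, 0 < p.2 ∧ p.2 < 1) :
    ∀ I : Set ℝ, IsOpen I → I.Nonempty → ∃ t ∈ I, ∀ p ∈ P, |dist (c + n * cis t) p.1 - 1| ≠ p.2 := by
  classical
  have hn1 : (1 : ℝ) ≤ n := by exact_mod_cast hn
  have hcont : ∀ q : ℂ, Continuous fun t : ℝ => dist (c + n * cis t) q := fun q =>
    (continuous_const.add (continuous_const.mul continuous_cis)).dist continuous_const
  suffices h : ∀ I : Set ℝ, IsOpen I → I.Nonempty → ∃ J ⊆ I, IsOpen J ∧ J.Nonempty ∧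
      ∀ t ∈ J, ∀ p ∈ P, |dist (c + n * cis t) p.1 - 1| ≠ p.2 by
    intro I hI hne
    obtain ⟨J, hJ, -, ⟨t, ht⟩, h1⟩ := h I hI hne
    exact ⟨t, hJ ht, h1 t ht⟩
  induction P using Finset.induction_on with
  | empty => exact fun I hI hne => ⟨I, subset_rfl, hI, hne, by simp⟩
  | insert p P hp ih =>
    intro I hI hne
    obtain ⟨J, hJ, hJo, hJne, h1⟩ := ih (fun p hp => hP p (Finset.mem_insert_of_mem hp)) I hI hne
    obtain ⟨hp0, hp1⟩ := hP p (Finset.mem_insert_self _ _)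
    have hR1 : 1 + p.2 ≠ (n : ℝ) := by
      intro h
      have h2 : (1 : ℝ) < n := by linarith
      have h3 : (n : ℝ) < 2 := by linarith
      have h4 : 1 < n := by exact_mod_cast h2
      have h5 : n < 2 := by exact_mod_cast h3
      omega
    obtain ⟨t1, ht1, h2⟩ := circ_ne (c := c) (q := p.1) (n := n) (R := 1 + p.2) (by linarith) (by linarith)
      hR1 hJo hJne
    set J1 : Set ℝ := J ∩ {t | dist (c + n * cis t) p.1 ≠ 1 + p.2} with hJ1
    have hJ1o : IsOpen J1 := hJo.inter ((isClosed_singleton (x := 1 + p.2)).isOpen_compl.preimage (hcont p.1))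
    obtain ⟨t2, ht2, h3⟩ := circ_ne (c := c) (q := p.1) (n := n) (R := 1 - p.2) (by linarith) (by linarith)
      (by linarith) hJ1o ⟨t1, ht1, h2⟩
    refine ⟨J1 ∩ {t | dist (c + n * cis t) p.1 ≠ 1 - p.2}, fun t ht => hJ ht.1.1,
      hJ1o.inter ((isClosed_singleton (x := 1 - p.2)).isOpen_compl.preimage (hcont p.1)), ⟨t2, ht2, h3⟩,
      fun t ht q hq => ?_⟩
    rcases Finset.mem_insert.1 hq with rfl | hq
    · intro h4
      rcases abs_eq hp0.le |>.1 h4 with h5 | h5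
      · exact ht.1.2 (by linarith)
      · exact ht.2 (by linarith)
    · exact h1 t ht.1.1 q hq

/-- one radius, bounded parameters -/
theorem arc_far0 (P : Finset (ℂ × ℝ)) (hP : ∀ p ∈ P, 0 < p.2 ∧ p.2 < 1) (M : ℝ) {L : ℝ} (hL : 0 < L)
    {n : ℕ} (hn : 1 ≤ n) : ∃ ρ > 0, ∀ c ∈ closedBall (0 : ℂ) M, ∀ a ∈ Icc (0 : ℝ) (2 * Real.pi),
      ∃ t ∈ Ioo a (a + L), ∀ p ∈ P, |dist (c + n * cis t) p.1 - 1| < p.2 ∨
        ρ + p.2 < |dist (c + n * cis t) p.1 - 1| := by
  classical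
  let O : ℕ → Set (ℂ × ℝ) := fun j => {x | ∃ t ∈ Ioo x.2 (x.2 + L), ∀ p ∈ P,
    |dist (x.1 + n * cis t) p.1 - 1| < p.2 ∨ 1 / ((j : ℝ) + 1) + p.2 < |dist (x.1 + n * cis t) p.1 - 1|}
  have hO : ∀ j, IsOpen (O j) := by
    intro j
    have e : O j = ⋃ t : ℝ, ({x : ℂ × ℝ | x.2 < t} ∩ {x | t < x.2 + L}) ∩ ⋂ p ∈ P,
        ({x : ℂ × ℝ | |dist (x.1 + n * cis t) p.1 - 1| < p.2} ∪
          {x | 1 / ((j : ℝ) + 1) + p.2 < |dist (x.1 + n * cis t) p.1 - 1|}) := by
      ext x
      simp only [O, mem_ofPred_eq, mem_iUnion, mem_inter_iff, mem_iInter, mem_union, mem_Ioo]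
    rw [e]
    refine isOpen_iUnion fun t => ((isOpen_lt (by fun_prop) (by fun_prop)).inter
      (isOpen_lt (by fun_prop) (by fun_prop))).inter (isOpen_biInter_finset fun p _ => ?_)
    exact (isOpen_lt (by fun_prop) (by fun_prop)).union (isOpen_lt (by fun_prop) (by fun_prop))
  have hmono : Monotone O := by
    intro i j hij x hx
    obtain ⟨t, ht, h1⟩ := hx
    refine ⟨t, ht, fun p hp => (h1 p hp).imp id fun h2 => lt_of_le_of_lt ?_ h2⟩
    have h3 : (1 : ℝ) / ((j : ℝ) + 1) ≤ 1 / ((i : ℝ) + 1) :=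
      one_div_le_one_div_of_le (by positivity) (by
        have : (i : ℝ) ≤ j := by exact_mod_cast hij
        linarith)
    linarith
  have hcov : closedBall (0 : ℂ) M ×ˢ Icc (0 : ℝ) (2 * Real.pi) ⊆ ⋃ j, O j := by
    rintro ⟨c, a⟩ -
    obtain ⟨t, ht, h1⟩ := exists_open_ne c hn P hP (Ioo a (a + L)) isOpen_Ioo (nonempty_Ioo.2 (by linarith))
    -- the finitely many gaps
    have h2 : ∃ ρ > 0, ∀ p ∈ P, |dist (c + n * cis t) p.1 - 1| < p.2 ∨
        ρ + p.2 < |dist (c + n * cis t) p.1 - 1| := by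
      have h3 : ∀ p ∈ P, ∀ᶠ ρ in 𝓝[>] (0 : ℝ), |dist (c + n * cis t) p.1 - 1| < p.2 ∨
          ρ + p.2 < |dist (c + n * cis t) p.1 - 1| := by
        intro p hp
        rcases lt_or_gt_of_ne (h1 p hp) with h4 | h4
        · exact Eventually.of_forall fun _ => Or.inl h4
        · have : ∀ᶠ ρ in 𝓝 (0 : ℝ), ρ + p.2 < |dist (c + n * cis t) p.1 - 1| := by
            have hc : ContinuousAt (fun ρ : ℝ => ρ + p.2) 0 := by fun_prop
            refine hc.eventually_lt continuousAt_const ?_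
            simpa using h4
          exact (this.filter_mono nhdsWithin_le_nhds).mono fun _ h => Or.inr h
      have h5 := (P.eventually_all.2 h3).and self_mem_nhdsWithin
      obtain ⟨ρ, h6, h7⟩ := h5.exists
      exact ⟨ρ, h7, h6⟩
    obtain ⟨ρ, hρ, h3⟩ := h2
    obtain ⟨j, hj⟩ := exists_nat_one_div_lt hρ
    refine mem_iUnion.2 ⟨j, t, ht, fun p hp => (h3 p hp).imp id fun h4 => ?_⟩
    show 1 / ((j : ℝ) + 1) + p.2 < |dist (c + n * cis t) p.1 - 1|
    linarith
  obtain ⟨j, hj⟩ := ((isCompact_closedBall (0 : ℂ) M).prod isCompact_Icc).elim_directed_cover O hO hcov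
    hmono.directed_le
  refine ⟨1 / ((j : ℝ) + 1), by positivity, fun c hc a ha => ?_⟩
  exact hj (show (c, a) ∈ _ from ⟨hc, ha⟩)

/-- **arcs and finitely many discs** -/
theorem arc_far (P : Finset (ℂ × ℝ)) (hP : ∀ p ∈ P, 0 < p.2 ∧ p.2 < 1) (m : ℕ) : ∃ ρ > 0,
    ∀ c : ℂ, ‖c‖ ≤ m → ∀ n : ℕ, 1 ≤ n → n ≤ m → ∀ a : ℝ, ∃ t ∈ Ioo a (a + 1 / ((m : ℝ) + 1)),
      ∀ p ∈ P, |dist (c + n * cis t) p.1 - 1| ≤ p.2 ∨ ρ + p.2 < |dist (c + n * cis t) p.1 - 1| := by
  classical
  have hL : (0 : ℝ) < 1 / ((m : ℝ) + 1) := by positivity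
  have h1 : ∀ n : ℕ, ∃ ρ > 0, 1 ≤ n → ∀ c ∈ closedBall (0 : ℂ) m, ∀ a ∈ Icc (0 : ℝ) (2 * Real.pi),
      ∃ t ∈ Ioo a (a + 1 / ((m : ℝ) + 1)), ∀ p ∈ P, |dist (c + n * cis t) p.1 - 1| < p.2 ∨
        ρ + p.2 < |dist (c + n * cis t) p.1 - 1| := by
    intro n
    by_cases hn : 1 ≤ n
    · obtain ⟨ρ, hρ, h⟩ := arc_far0 P hP m hL hn
      exact ⟨ρ, hρ, fun _ => h⟩
    · exact ⟨1, one_pos, fun h => absurd h hn⟩
  choose ρ hρ h using h1
  have h2 : ∃ ρ' > 0, ∀ n ∈ Finset.range (m + 1), ρ' ≤ ρ n := by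
    have hne : (Finset.range (m + 1)).Nonempty := ⟨0, by simp⟩
    refine ⟨(Finset.range (m + 1)).inf' hne ρ, ?_, fun n hn => Finset.inf'_le _ hn⟩
    exact (Finset.lt_inf'_iff hne).2 fun n _ => hρ n
  obtain ⟨ρ', hρ', h3⟩ := h2
  refine ⟨ρ', hρ', fun c hc n hn hnm a => ?_⟩
  -- reduce the parameter
  obtain ⟨a', ha', l, hl⟩ : ∃ a' ∈ Icc (0 : ℝ) (2 * Real.pi), ∃ l : ℤ, a = a' + l * (2 * Real.pi) := by
    have hp := Real.two_pi_pos
    refine ⟨toIcoMod hp 0 a, ?_, toIcoDiv hp 0 a, ?_⟩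
    · have := toIcoMod_mem_Ico hp 0 a
      rw [zero_add] at this
      exact ⟨this.1, this.2.le⟩
    · have := toIcoMod_add_toIcoDiv_zsmul hp 0 a
      rw [zsmul_eq_mul] at this
      exact this.symm
  obtain ⟨t, ht, h4⟩ := h n hn c (by rw [mem_closedBall, dist_zero_right]; exact hc) a' ha'
  have hcis : cis (t + l * (2 * Real.pi)) = cis t := by
    unfold cis
    rw [show ((t + l * (2 * Real.pi) : ℝ) : ℂ) * Complex.I = t * Complex.I + l * (2 * Real.pi * Complex.I) by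
      push_cast; ring]
    rw [Complex.exp_add, Complex.exp_int_mul_two_pi_mul_I, mul_one]
  refine ⟨t + l * (2 * Real.pi), ⟨by rw [hl]; linarith [ht.1], by rw [hl]; linarith [ht.2]⟩, fun p hp => ?_⟩
  rw [hcis]
  refine (h4 p hp).imp le_of_lt fun h5 => lt_of_le_of_lt ?_ h5
  have := h3 n (Finset.mem_range.2 (by omega))
  linarith

end Vale.Agent.P032.H725
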