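import Vale.Agent.P032.H815.Gen
import Vale.Agent.P032.H725.Arc

/-!
# P032: maximal families for which the set of uncovered points cannot be made smaller at any scale

`Sc U` : for every `m` there are finite unions of discs `K i ⊆ U i`, a compact subset `C` of the union of the `U i`
and `ρ > 0` such that no family `W` of open sets without unit distance and with dense union, `K i ⊆ W i`, covers
`C` and `closedBall x ρ`, `x ∈ XX U`, `‖x‖ ≤ m`; and `ρ` is small against `K` on arcs.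
`exists_sc` : existence.  `Sc.gen` : `Sc U → Gen U`.
-/

open Set Filter Topology Metric

noncomputable section

namespace Vale.Agent.P032.H725

open Vale.Agent.P032.Six Vale.Agent.P032.H815

variable {k : ℕ}

/-- minimality at one scale, relative to a set `X` of points -/
structure Mi (m : ℕ) (K : Fin k → Set ℂ) (C : Set ℂ) (ρ : ℝ) (X : Set ℂ) : Prop where
  pos : 0 < ρ
  lt : ρ < 1 / ((m : ℝ) + 1)
  cpt : ∀ i, IsCompact (K i)
  cptC : IsCompact C
  mi : ∀ x ∈ X, ‖x‖ ≤ m → ∀ W, Sol W → (∀ i, K i ⊆ W i) → C ⊆ ⋃ i, W i → ¬ closedBall x ρ ⊆ ⋃ i, W i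
  arc : ∀ c : ℂ, ‖c‖ ≤ m → ∀ n : ℕ, 1 ≤ n → n ≤ m → ∀ a : ℝ, ∃ t ∈ Ioo a (a + 1 / ((m : ℝ) + 1)),
    ∀ i, Far (K i) (2 * ρ) (c + n * cis t)

/-- scale minimality -/
def Sc (U : Fin k → Set ℂ) : Prop :=
  ∀ m : ℕ, ∃ (K : Fin k → Set ℂ) (C : Set ℂ) (ρ : ℝ), Mi m K C ρ (XX U) ∧ (∀ i, K i ⊆ U i) ∧ C ⊆ ⋃ i, U i

/-- extendable finite unions of discs -/
structure ExB (K : Fin k → Set ℂ) : Prop where
  bl : ∀ i, Bl (K i)
  ex : ∃ W, Sol W ∧ ∀ i, K i ⊆ W i

/-- the greedy choice -/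
theorem greedy {K : Fin k → Set ℂ} {ρ : ℝ} (hK : ∃ W, Sol W ∧ ∀ i, K i ⊆ W i) (s : Finset ℂ) :
    ∃ C, IsCompact C ∧ (∃ W, Sol W ∧ (∀ i, K i ⊆ W i) ∧ C ⊆ ⋃ i, W i) ∧
      ∀ b ∈ s, closedBall b ρ ⊆ C ∨ ∀ W, Sol W → (∀ i, K i ⊆ W i) → C ⊆ ⋃ i, W i →
        ¬ closedBall b ρ ⊆ ⋃ i, W i := by
  classical
  induction s using Finset.induction_on with
  | empty =>
    obtain ⟨W, hW, hKW⟩ := hK
    exact ⟨∅, isCompact_empty, ⟨W, hW, hKW, empty_subset _⟩, by simp⟩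
  | insert b s hb ih =>
    obtain ⟨C, hC, hCW, h1⟩ := ih
    by_cases hcon : ∃ W, Sol W ∧ (∀ i, K i ⊆ W i) ∧ C ⊆ ⋃ i, W i ∧ closedBall b ρ ⊆ ⋃ i, W i
    · obtain ⟨W, hW, hKW, hCW', hbW⟩ := hcon
      refine ⟨C ∪ closedBall b ρ, hC.union (isCompact_closedBall _ _),
        ⟨W, hW, hKW, union_subset hCW' hbW⟩, fun b' hb' => ?_⟩
      rcases Finset.mem_insert.1 hb' with rfl | hb'
      · exact Or.inl subset_union_right
      · rcases h1 b' hb' with h2 | h2
        · exact Or.inl (h2.trans subset_union_left)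
        · exact Or.inr fun W' hW' hK' hC' => h2 W' hW' hK' (subset_union_left.trans hC')
    · refine ⟨C, hC, hCW, fun b' hb' => ?_⟩
      rcases Finset.mem_insert.1 hb' with rfl | hb'
      · exact Or.inr fun W' hW' hK' hC' hb2 => hcon ⟨W', hW', hK', hC', hb2⟩
      · exact h1 b' hb'

/-- one step -/
theorem step {K : Fin k → Set ℂ} (hK : ExB K) (m : ℕ) : ∃ K' : Fin k → Set ℂ, ExB K' ∧
    (∀ i, K i ⊆ interior (K' i)) ∧ (∃ i, (interior (K' i) ∩ ball (cc m) (rr m)).Nonempty) ∧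
    ∃ C ρ, Mi m K C ρ Cᶜ ∧ C ⊆ ⋃ i, interior (K' i) := by
  classical
  choose s hs hKs using hK.bl
  set P : Finset (ℂ × ℝ) := Finset.univ.biUnion s with hP
  obtain ⟨ρ₀, hρ₀, h0⟩ := arc_far P (fun p hp => by
    obtain ⟨i, -, hi⟩ := Finset.mem_biUnion.1 hp
    exact hs i p hi) m
  set ρ : ℝ := min (ρ₀ / 2) (1 / (2 * ((m : ℝ) + 1))) with hρdef
  have hρ : 0 < ρ := by positivity
  have hρ1 : 2 * ρ ≤ ρ₀ := by
    have := min_le_left (ρ₀ / 2) (1 / (2 * ((m : ℝ) + 1)))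
    linarith
  have hρ2 : ρ < 1 / ((m : ℝ) + 1) := by
    refine lt_of_le_of_lt (min_le_right _ _) ?_
    exact one_div_lt_one_div_of_lt (by positivity) (by linarith [show (0 : ℝ) ≤ m by positivity])
  -- the net
  obtain ⟨t, -, ht⟩ := (isCompact_closedBall (0 : ℂ) m).elim_nhds_subcover (fun x => ball x (ρ / 2))
    fun x _ => ball_mem_nhds x (by positivity)
  obtain ⟨C, hC, ⟨W, hW, hKW, hCW⟩, h1⟩ := greedy (ρ := ρ / 2) hK.ex t
  -- a point of some `W i0` in the ball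
  obtain ⟨p, hp, hpb⟩ := hW.dense.exists_mem_open isOpen_ball
    (⟨cc m, mem_ball_self (rr_pos m)⟩ : (ball (cc m) (rr m)).Nonempty)
  obtain ⟨i0, hi0⟩ := mem_iUnion.1 hp
  obtain ⟨B, hB1, hB2, hB3⟩ := hC.finite_compact_cover Finset.univ W (fun i _ => hW.isOpen i)
    (by simpa using hCW)
  have hL : ∀ i, ∃ L, Bl L ∧ (K i ∪ B i ∪ (if i = i0 then {p} else ∅)) ⊆ interior L ∧ L ⊆ W i := by
    intro i
    refine exists_bl ((((hK.bl i).isCompact).union (hB1 i)).union ?_) (hW.isOpen i)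
      (union_subset (union_subset (hKW i) (hB2 i)) ?_)
    · split_ifs
      · exact isCompact_singleton
      · exact isCompact_empty
    · split_ifs with h
      · rw [h]; exact singleton_subset_iff.2 hi0
      · exact empty_subset _
  choose L hL1 hL2 hL3 using hL
  refine ⟨L, ⟨hL1, W, hW, hL3⟩, fun i => ?_, ⟨i0, p, ?_, hpb⟩, C, ρ, ⟨hρ, hρ2, fun i => (hK.bl i).isCompact,
    hC, fun x hx hxm W' hW' hKW' hCW' hcov => ?_, fun c hc n hn hnm a => ?_⟩, fun x hx => ?_⟩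
  · exact (subset_union_left.trans subset_union_left).trans (hL2 i)
  · refine hL2 i0 (Or.inr ?_)
    simp
  · obtain ⟨b, hb, hxb⟩ := mem_iUnion₂.1 (ht (by
      rw [mem_closedBall, dist_zero_right]; exact hxm : x ∈ closedBall (0 : ℂ) m))
    have hsub : closedBall b (ρ / 2) ⊆ closedBall x ρ := by
      intro z hz
      rw [mem_closedBall] at hz ⊢
      have h2 := mem_ball.1 hxb
      have h3 := dist_triangle z b x
      rw [dist_comm b x] at h3
      linarith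
    rcases h1 b hb with h2 | h2
    · exact hx (h2 (ball_subset_closedBall hxb))
    · exact h2 W' hW' hKW' hCW' (hsub.trans hcov)
  · obtain ⟨t, ht, h2⟩ := h0 c hc n hn hnm a
    refine ⟨t, ht, fun i => far_of (hs i) (hKs i) fun p hp => ?_⟩
    refine (h2 p (Finset.mem_biUnion.2 ⟨i, Finset.mem_univ i, hp⟩)).imp id fun h3 => ?_
    linarith
  · rw [hB3] at hx
    obtain ⟨i, -, hi⟩ := mem_iUnion₂.1 hx
    exact mem_iUnion.2 ⟨i, hL2 i (Or.inl (Or.inr hi))⟩

/-- the sequence of conditions -/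
theorem exists_seq {W : Fin k → Set ℂ} (hW : Sol W) : ∃ K : ℕ → Fin k → Set ℂ,
    (∀ n, ExB (K n)) ∧ (∀ n i, K n i ⊆ interior (K (n + 1) i)) ∧
      (∀ n, ∃ i, (interior (K (n + 1) i) ∩ ball (cc n) (rr n)).Nonempty) ∧
      ∀ n, ∃ C ρ, Mi n (K n) C ρ Cᶜ ∧ C ⊆ ⋃ i, interior (K (n + 1) i) := by
  classical
  have h0 : ExB (fun _ : Fin k => (∅ : Set ℂ)) := ⟨fun _ => Bl.empty, W, hW, fun _ => empty_subset _⟩
  let S : ℕ → {K : Fin k → Set ℂ // ExB K} := fun n => Nat.rec ⟨fun _ => ∅, h0⟩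
    (fun n K => ⟨(step K.2 n).choose, (step K.2 n).choose_spec.1⟩) n
  have hS : ∀ n, (S (n + 1)).1 = (step (S n).2 n).choose := fun n => rfl
  refine ⟨fun n => (S n).1, fun n => (S n).2, fun n i => ?_, fun n => ?_, fun n => ?_⟩
  · have := (step (S n).2 n).choose_spec.2.1 i
    rw [← hS] at this
    exact this
  · have := (step (S n).2 n).choose_spec.2.2.1
    rw [← hS] at this
    exact this
  · have := (step (S n).2 n).choose_spec.2.2.2
    rw [← hS] at this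
    exact this

/-- **Existence of maximal families with scale minimality.** -/
theorem exists_sc {W : Fin k → Set ℂ} (hW : Sol W) : ∃ U : Fin k → Set ℂ, Mx U ∧
    (∀ i x, (∀ y ∈ closure (U i), dist x y ≠ 1) → x ∈ U i) ∧ Sc U := by
  obtain ⟨K, hK, hKK, hKd, hKc⟩ := exists_seq hW
  have hmono : ∀ i, Monotone fun n => K n i := fun i =>
    monotone_nat_of_le_succ fun n => (hKK n i).trans interior_subset
  set V : Fin k → Set ℂ := fun i => ⋃ n, interior (K n i) with hV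
  have hKV : ∀ n i, K n i ⊆ V i := fun n i => (hKK n i).trans
    (subset_iUnion (fun n => interior (K n i)) (n + 1))
  have hVo : ∀ i, IsOpen (V i) := fun i => isOpen_iUnion fun n => isOpen_interior
  have hVf : ∀ i, ∀ x ∈ V i, ∀ y ∈ V i, dist x y ≠ 1 := by
    intro i x hx y hy
    obtain ⟨n, hn⟩ := mem_iUnion.1 hx
    obtain ⟨m, hm⟩ := mem_iUnion.1 hy
    obtain ⟨W', hW', hKW'⟩ := (hK (max n m)).ex
    exact hW'.free i x (hKW' i (hmono i (le_max_left n m) (interior_subset hn))) y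
      (hKW' i (hmono i (le_max_right n m) (interior_subset hm)))
  have hVd : Dense (⋃ i, V i) := by
    rw [Metric.dense_iff]
    intro x r hr
    obtain ⟨n, -, hn⟩ := exists_ball x hr
    obtain ⟨i, p, hp, hpb⟩ := hKd n
    exact ⟨p, hn (ball_subset_closedBall hpb), mem_iUnion.2 ⟨i, mem_iUnion.2 ⟨n + 1, hp⟩⟩⟩
  choose U hVU hU hmax using fun i => exists_maximal (V i) (hVo i) (hVf i)
  have hUd : Dense (⋃ i, U i) := hVd.mono (iUnion_mono hVU)
  refine ⟨U, Mx.of_max hU hUd hmax, fun i x hx => (hmax i x).2 hx, fun m => ?_⟩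
  obtain ⟨C, ρ, h1, h2⟩ := hKc m
  have hCU : C ⊆ ⋃ i, U i := h2.trans (iUnion_mono fun i => interior_subset.trans
    ((hKV (m + 1) i).trans (hVU i)))
  refine ⟨K m, C, ρ, ⟨h1.pos, h1.lt, h1.cpt, h1.cptC, fun x hx => h1.mi x ?_, h1.arc⟩,
    fun i => (hKV m i).trans (hVU i), hCU⟩
  intro hxC
  obtain ⟨i, hi⟩ := mem_iUnion.1 (hCU hxC)
  exact hx i hi

/-- scale minimal families are generic -/
theorem Sc.gen {U : Fin k → Set ℂ} (hU : ∀ i, IsOpen (U i)) (h : Sc U) : Gen U := by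
  intro x hx r hr
  obtain ⟨m₁, hm₁⟩ := exists_nat_ge ‖x‖
  obtain ⟨m₂, hm₂⟩ := exists_nat_one_div_lt hr
  set m := max m₁ m₂ with hm
  obtain ⟨K, C, ρ, h1, h2, h3⟩ := h m
  obtain ⟨B, hB1, hB2, hB3⟩ := h1.cptC.finite_compact_cover Finset.univ U (fun i _ => hU i)
    (by simpa using h3)
  refine ⟨fun i => K i ∪ B i, fun i => (h1.cpt i).union (hB1 i), fun i => union_subset (h2 i) (hB2 i),
    fun W hW hKW hcov => ?_⟩
  refine h1.mi x hx (hm₁.trans (by exact_mod_cast le_max_left m₁ m₂)) W hW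
    (fun i => subset_union_left.trans (hKW i)) ?_ ((closedBall_subset_closedBall ?_).trans hcov)
  · rw [hB3]
    intro y hy
    obtain ⟨i, -, hi⟩ := mem_iUnion₂.1 hy
    exact mem_iUnion.2 ⟨i, hKW i (Or.inr hi)⟩
  · have h4 : (1 : ℝ) / ((m : ℝ) + 1) ≤ 1 / ((m₂ : ℝ) + 1) :=
      one_div_le_one_div_of_le (by positivity) (by
        have : (m₂ : ℝ) ≤ m := by exact_mod_cast le_max_right m₁ m₂
        linarith)
    linarith [h1.lt]

end Vale.Agent.P032.H725
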